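import Mathlib

/-!
The space of covolume-one lattices in `ℝⁿ` (column vectors, left action) and the packet of an
order with respect to an ordering of the real embeddings.
-/

namespace Vale.Agent.P007

open Matrix

/-- `SL_n(ℤ)` inside `SL_n(ℝ)`. -/
def latticeGroup (n : ℕ) : Subgroup (SpecialLinearGroup (Fin n) ℝ) :=
  (SpecialLinearGroup.map (Int.castRingHom ℝ)).range

/-- Covolume-one lattices in `ℝⁿ`: the class of `g` is the lattice `g ℤⁿ`. -/
abbrev LatticeSpace (n : ℕ) := SpecialLinearGroup (Fin n) ℝ ⧸ latticeGroup n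

/-- The packet of the subring `O`: all covolume-one lattices `c · σ(I)`, where `I` is an
invertible `O`-submodule of `K` and `c` is a diagonal matrix with nonzero real entries. As a set
this is the union of the orbits of the lattices `Λ_I w` under the diagonal group. -/
def packet {n : ℕ} (K : Type*) [Field K] (O : Subring K) (σ : Fin n ≃ (K →+* ℝ)) :
    Set (LatticeSpace n) :=
  {x | ∃ g : SpecialLinearGroup (Fin n) ℝ, (g : LatticeSpace n) = x ∧
    ∃ (I : (Submodule O K)ˣ) (c : Fin n → ℝ), (∀ j, c j ≠ 0) ∧
      Set.range (fun v : Fin n → ℤ => (g : Matrix (Fin n) (Fin n) ℝ) *ᵥ fun k => (v k : ℝ)) =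
        (fun α : K => fun j => c j * σ j α) '' ((I : Submodule O K) : Set K)}

end Vale.Agent.P007
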