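import Mathlib

/-!
Totally real fields of composite degree containing a fixed subfield, with growing discriminant.
-/

namespace Vale.Agent.P007

open IntermediateField NumberField

set_option backward.isDefEq.respectTransparency false

/-- In a cyclic group of order divisible by `2d` some subgroup of index `d` contains every
involution. -/
theorem exists_index_subgroup {G : Type*} [Group G] [Finite G] [IsCyclic G] {d : ℕ}
    (h : 2 * d ∣ Nat.card G) :
    ∃ H : Subgroup G, H.index = d ∧ H.Normal ∧ ∀ c : G, c ^ 2 = 1 → c ∈ H := by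
  obtain ⟨g, hg⟩ := IsCyclic.exists_generator (α := G)
  have hord : orderOf g = Nat.card G := orderOf_eq_card_of_forall_mem_zpowers hg
  obtain ⟨w, hw⟩ := h
  have hpos : 0 < Nat.card G := Nat.card_pos
  have hd : 0 < d := by
    rcases Nat.eq_zero_or_pos d with rfl | h
    · simp [hw] at hpos
    · exact h
  have hcard : Nat.card (Subgroup.zpowers (g ^ d)) = 2 * w := by
    rw [Nat.card_zpowers, orderOf_pow' g hd.ne', hord,
      Nat.gcd_eq_right ⟨2 * w, by rw [hw]; ring⟩, hw,
      show 2 * d * w = 2 * w * d by ring, Nat.mul_div_cancel _ hd]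
  refine ⟨Subgroup.zpowers (g ^ d), ?_, ?_, ?_⟩
  · have h1 := Subgroup.card_mul_index (Subgroup.zpowers (g ^ d))
    rw [hcard, hw] at h1
    have hw0 : 0 < 2 * w := by
      rcases Nat.eq_zero_or_pos w with rfl | h
      · simp [hw] at hpos
      · omega
    exact Nat.eq_of_mul_eq_mul_left hw0 (h1.trans (by ring))
  · exact ⟨fun x hx y => by
      obtain ⟨u, rfl⟩ := Subgroup.mem_zpowers_iff.1 (hg x)
      obtain ⟨v, rfl⟩ := Subgroup.mem_zpowers_iff.1 (hg y)
      rwa [← zpow_add, ← zpow_neg, ← zpow_add, show v + u + -v = u by ring]⟩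
  · intro c hc
    obtain ⟨k, hk⟩ := (Submonoid.mem_powers_iff c g).1 (mem_powers_iff_mem_zpowers.2 (hg c))
    have h2 : Nat.card G ∣ k * 2 := by
      rw [← hord, orderOf_dvd_iff_pow_eq_one, pow_mul, hk, hc]
    obtain ⟨t, ht⟩ : d ∣ k := by
      have : d * 2 ∣ k * 2 := dvd_trans ⟨w, by rw [hw]; ring⟩ h2
      exact Nat.dvd_of_mul_dvd_mul_right (by norm_num) this
    exact Subgroup.mem_zpowers_iff.2 ⟨(t : ℤ), by rw [zpow_natCast, ← pow_mul, ← ht, hk]⟩

/-- Complex numbers that are real, as an intermediate field over `ℚ`. -/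
noncomputable def realField : IntermediateField ℚ ℂ :=
  (IsScalarTower.toAlgHom ℚ ℝ ℂ).fieldRange

theorem mem_realField {x : ℂ} : x ∈ realField ↔ starRingEnd ℂ x = x := by
  rw [Complex.conj_eq_iff_real, realField]
  exact ⟨fun ⟨r, hr⟩ => ⟨r, hr.symm⟩, fun ⟨r, hr⟩ => ⟨r, hr.symm⟩⟩

/-- A totally real cyclic field of degree `d` inside the `p`-th cyclotomic field. -/
theorem exists_cyclic_real {p d : ℕ} (hp : p.Prime) (hd : 2 * d ∣ p - 1) (hd1 : 1 < d) :
    ∃ L : IntermediateField ℚ ℂ, ∃ _ : NumberField L, Module.finrank ℚ L = d ∧ IsGalois ℚ L ∧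
      L ≤ realField ∧ ∃ j, 0 < j ∧ (discr L).natAbs = p ^ j := by
  have : NeZero p := ⟨hp.ne_zero⟩
  have : Fact p.Prime := ⟨hp⟩
  have hζ := Complex.isPrimitiveRoot_exp p hp.ne_zero
  let M : IntermediateField ℚ ℂ := ℚ⟮Complex.exp (2 * Real.pi * Complex.I / p)⟯
  have : IsCyclotomicExtension {p} ℚ M := by
    change IsCyclotomicExtension {p} ℚ M.toSubalgebra
    rw [IntermediateField.adjoin_simple_toSubalgebra_of_isAlgebraic
      (hζ.isIntegral hp.pos).tower_top.isAlgebraic]
    exact hζ.adjoin_isCyclotomicExtension ℚ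
  have : NumberField M := IsCyclotomicExtension.numberField {p} ℚ M
  have : IsGalois ℚ M := IsCyclotomicExtension.isGalois {p} ℚ M
  let e := IsCyclotomicExtension.autEquivPow M (Polynomial.cyclotomic.irreducible_rat hp.pos)
  have : IsCyclic (M ≃ₐ[ℚ] M) := isCyclic_of_surjective e.symm e.symm.surjective
  have hcard : Nat.card (M ≃ₐ[ℚ] M) = p - 1 := by
    rw [Nat.card_congr e.toEquiv, Nat.card_eq_fintype_card, ZMod.card_units_eq_totient,
      Nat.totient_prime hp]
  obtain ⟨H, hH, hHn, hHc⟩ := exists_index_subgroup (G := M ≃ₐ[ℚ] M) (d := d) (hcard ▸ hd)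
  let L₀ : IntermediateField ℚ M := IntermediateField.fixedField H
  have hgal : IsGalois ℚ L₀ := IsGalois.of_fixedField_normal_subgroup H
  have hfin : Module.finrank ℚ L₀ = d := by
    have h1 := Module.finrank_mul_finrank ℚ L₀ M
    have h2 : Module.finrank L₀ M = Nat.card H := IntermediateField.finrank_fixedField_eq_card H
    have h3 : Module.finrank ℚ M = Nat.card (M ≃ₐ[ℚ] M) :=
      (IsGalois.card_aut_eq_finrank ℚ M).symm
    rw [h2, h3, ← Subgroup.card_mul_index H, hH, mul_comm] at h1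
    exact Nat.eq_of_mul_eq_mul_left Nat.card_pos h1
  let L : IntermediateField ℚ ℂ := IntermediateField.lift L₀
  let eL : L₀ ≃ₐ[ℚ] L := IntermediateField.liftAlgEquiv L₀
  have : FiniteDimensional ℚ L := eL.toLinearEquiv.finiteDimensional
  have hNF : NumberField L := ⟨⟩
  refine ⟨L, hNF, eL.toLinearEquiv.finrank_eq.symm.trans hfin, IsGalois.of_algEquiv eL, ?_, ?_⟩
  · rintro x hx
    have hxM : x ∈ M := IntermediateField.lift_le L₀ hx
    have hx0 : (⟨x, hxM⟩ : M) ∈ L₀ := (IntermediateField.mem_lift ⟨x, hxM⟩).1 hx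
    let c : M ≃ₐ[ℚ] M := ((Complex.conjAe).restrictScalars ℚ).restrictNormal M
    have hc : ∀ z : M, ((c z : M) : ℂ) = starRingEnd ℂ (z : ℂ) := fun z =>
      AlgEquiv.restrictNormal_commutes ((Complex.conjAe).restrictScalars ℚ) M z
    have hc2 : c ^ 2 = 1 := by
      ext z
      rw [pow_two, AlgEquiv.mul_apply, AlgEquiv.one_apply, hc, hc, Complex.conj_conj]
    have hfix : c ⟨x, hxM⟩ = ⟨x, hxM⟩ := hx0 ⟨c, hHc c hc2⟩
    rw [mem_realField, ← hc ⟨x, hxM⟩, hfix]
  · have h1 : discr L = discr L₀ :=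
      (discr_eq_discr_of_algEquiv L₀ eL).symm
    have h2 : (discr L₀).natAbs ∣ p ^ (p - 2) := by
      have h := NumberField.discr_dvd_discr L₀ M
      rw [IsCyclotomicExtension.Rat.discr_prime p M] at h
      have h' := Int.natAbs_dvd_natAbs.2 h
      simpa [Int.natAbs_mul, Int.natAbs_pow] using h'
    obtain ⟨j, -, hj⟩ := (Nat.dvd_prime_pow hp).1 h2
    refine ⟨j, ?_, h1 ▸ hj⟩
    rcases Nat.eq_zero_or_pos j with rfl | h
    · exfalso
      have h3 : 2 < |discr L₀| := abs_discr_gt_two (hfin.symm ▸ hd1)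
      rw [Int.abs_eq_natAbs, hj] at h3
      simp at h3
    · exact h

/-- Number fields with coprime discriminants inside `ℂ`, one of them Galois, are linearly
disjoint. -/
theorem linearDisjoint_of_coprime (F L : IntermediateField ℚ ℂ) [NumberField F] [NumberField L]
    [IsGalois ℚ F] (h : IsCoprime (discr F) (discr L)) : F.LinearDisjoint L := by
  apply IntermediateField.LinearDisjoint.of_inf_eq_bot
  have : FiniteDimensional ℚ ↥(F ⊓ L) := FiniteDimensional.of_injective
    (IntermediateField.inclusion (inf_le_left : F ⊓ L ≤ F)).toLinearMap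
    (IntermediateField.inclusion (inf_le_left : F ⊓ L ≤ F)).injective
  have : NumberField ↥(F ⊓ L) := ⟨⟩
  by_contra hne
  let _ : Algebra ↥(F ⊓ L) F := (IntermediateField.inclusion inf_le_left).toRingHom.toAlgebra
  let _ : Algebra ↥(F ⊓ L) L := (IntermediateField.inclusion inf_le_right).toRingHom.toAlgebra
  have hu : IsUnit (discr ↥(F ⊓ L)) :=
    h.isUnit_of_dvd' (NumberField.discr_dvd_discr _ _) (NumberField.discr_dvd_discr _ _)
  have h1 : 1 < Module.finrank ℚ ↥(F ⊓ L) := by
    refine Nat.one_lt_iff_ne_zero_and_ne_one.mpr ⟨Module.finrank_pos.ne', ?_⟩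
    rwa [ne_eq, IntermediateField.finrank_eq_one_iff]
  have h2 := abs_discr_gt_two h1
  rcases Int.isUnit_eq_one_or hu with e | e <;> rw [e] at h2 <;> norm_num at h2

/-- A field of reals inside `ℂ`, Galois over `ℚ`, has all complex embeddings real, so its real
embeddings can be ordered by `Fin` of its degree. -/
theorem totallyReal_of_le_realField (E : IntermediateField ℚ ℂ) [NumberField E] [IsGalois ℚ E]
    (h : E ≤ realField) :
    IsTotallyReal E ∧ Nonempty (Fin (Module.finrank ℚ E) ≃ (E →+* ℝ)) := by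
  have hreal : ∀ φ : E →+* ℂ, ComplexEmbedding.IsReal φ := by
    intro φ
    rw [ComplexEmbedding.isReal_iff]
    refine RingHom.ext fun x => ?_
    have hmem : φ x ∈ E := by
      have hr := AlgHom.fieldRange_of_normal φ.toRatAlgHom
      exact (SetLike.ext_iff.1 hr (φ x)).1 ⟨x, rfl⟩
    exact mem_realField.1 (h hmem)
  refine ⟨⟨fun v => InfinitePlace.isReal_iff.2 (hreal v.embedding)⟩, ?_⟩
  let T : (E →+* ℝ) → (E →+* ℂ) := fun f => Complex.ofRealHom.comp f
  have hT : Function.Bijective T := by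
    refine ⟨fun f g hfg => RingHom.ext fun x => Complex.ofReal_injective
      (RingHom.congr_fun hfg x), fun φ => ⟨(hreal φ).embedding, ?_⟩⟩
    exact RingHom.ext fun x => (hreal φ).coe_embedding_apply x
  have hc : Fintype.card (E →+* ℂ) = Module.finrank ℚ E := Embeddings.card E ℂ
  exact ⟨((Equiv.ofBijective T hT).trans (Fintype.equivFinOfCardEq hc)).symm⟩

/-- For every `a, b ≥ 2` there are totally real fields of degree `a * b` with discriminants
tending to infinity, all containing a root of one fixed integer polynomial without rational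
roots in those fields. -/
theorem exists_fields (a b : ℕ) (ha : 1 < a) (hb : 1 < b) :
    ∃ P : Polynomial ℤ, P ≠ 0 ∧ ∀ i : ℕ, ∃ E : IntermediateField ℚ ℂ, ∃ _ : NumberField E,
      Module.finrank ℚ E = a * b ∧ IsTotallyReal E ∧ (i : ℤ) ≤ |discr E| ∧
      Nonempty (Fin (a * b) ≃ (E →+* ℝ)) ∧
      ∃ r : E, IsIntegral ℤ r ∧ Polynomial.aeval r P = 0 ∧ r ∉ Set.range (algebraMap ℚ E) := by
  obtain ⟨p, hp, -, hpmod⟩ := Nat.exists_prime_gt_modEq_one (k := 2 * a) 0 (by omega)
  have hpd : 2 * a ∣ p - 1 := (Nat.modEq_iff_dvd' hp.one_le).1 hpmod.symm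
  obtain ⟨F, hFNF, hFdeg, hFgal, hFreal, jF, hjF, hFdisc⟩ := exists_cyclic_real hp hpd ha
  obtain ⟨r, hrint, hr⟩ : ∃ r : F, IsIntegral ℤ r ∧ r ∉ Set.range (algebraMap ℚ F) := by
    by_contra! hall
    have htop : ∀ x : F, x ∈ (⊥ : Subalgebra ℚ F) := by
      intro x
      obtain ⟨m, hm0, hm⟩ :=
        exists_integral_multiples ℤ ℚ ({x} : Finset F)
      obtain ⟨s, hs⟩ := hall _ (hm x (Finset.mem_singleton_self x))
      refine Algebra.mem_bot.2 ⟨s / m, ?_⟩
      rw [map_div₀, hs, map_intCast, zsmul_eq_mul, mul_div_cancel_left₀]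
      exact_mod_cast hm0
    have h1 : Module.finrank ℚ F = 1 :=
      Subalgebra.bot_eq_top_iff_finrank_eq_one.1 (eq_top_iff.2 fun x _ => htop x)
    omega
  refine ⟨minpoly ℤ r, minpoly.ne_zero hrint, fun i => ?_⟩
  obtain ⟨q, hq, hqgt, hqmod⟩ := Nat.exists_prime_gt_modEq_one (k := 2 * b) (max i p) (by omega)
  have hqd : 2 * b ∣ q - 1 := (Nat.modEq_iff_dvd' hq.one_le).1 hqmod.symm
  obtain ⟨L, hLNF, hLdeg, hLgal, hLreal, jL, hjL, hLdisc⟩ := exists_cyclic_real hq hqd hb
  have hcop : IsCoprime (discr F) (discr L) := by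
    rw [Int.isCoprime_iff_nat_coprime, hFdisc, hLdisc]
    exact Nat.Coprime.pow _ _ ((Nat.coprime_primes hp hq).2 (by omega))
  have hdisj := linearDisjoint_of_coprime F L hcop
  let E : IntermediateField ℚ ℂ := F ⊔ L
  have hENF : NumberField E := ⟨⟩
  have hEgal : IsGalois ℚ E := IsGalois.mk
  have hEdeg : Module.finrank ℚ E = a * b := by
    rw [IntermediateField.LinearDisjoint.finrank_sup hdisj, hFdeg, hLdeg]
  obtain ⟨htr, hσ⟩ := totallyReal_of_le_realField E (sup_le hFreal hLreal)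
  refine ⟨E, hENF, hEdeg, htr, ?_, hEdeg ▸ hσ, IntermediateField.inclusion le_sup_left r,
    hrint.map ((IntermediateField.inclusion (le_sup_left : F ≤ E)).restrictScalars ℤ), ?_, ?_⟩
  · let _ : Algebra L E := (IntermediateField.inclusion (le_sup_right : L ≤ E)).toRingHom.toAlgebra
    have hdvd := Int.natAbs_dvd_natAbs.2 (NumberField.discr_dvd_discr L E)
    rw [hLdisc] at hdvd
    have h1 : q ≤ (discr E).natAbs := Nat.le_of_dvd
      (Int.natAbs_pos.2 (discr_ne_zero E)) ((dvd_pow_self q hjL.ne').trans hdvd)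
    rw [Int.abs_eq_natAbs]
    omega
  · have h1 := Polynomial.aeval_algHom_apply
      ((IntermediateField.inclusion (le_sup_left : F ≤ E)).restrictScalars ℤ) r (minpoly ℤ r)
    rw [minpoly.aeval, map_zero] at h1
    exact h1
  · rintro ⟨s, hs⟩
    apply hr
    refine ⟨s, Subtype.ext ?_⟩
    have h1 := congrArg Subtype.val hs
    simpa using h1

end Vale.Agent.P007
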