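import Mathlib
import Vale.Agent.P007.Defs

/-!
Lattices invariant under a fixed non-scalar diagonal matrix, and the resulting obstruction to
equidistribution.
-/

namespace Vale.Agent.P007

open Matrix MeasureTheory

variable {n : ℕ}

theorem isClosed_latticeGroup (n : ℕ) :
    IsClosed (latticeGroup n : Set (SpecialLinearGroup (Fin n) ℝ)) := by
  rw [latticeGroup, MonoidHom.coe_range]
  exact (Int.isClosedEmbedding_coe_real.specialLinearGroup_map
    (f := Int.castRingHom ℝ)).isClosed_range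

theorem locallyCompact_SL (n : ℕ) : LocallyCompactSpace (SpecialLinearGroup (Fin n) ℝ) := by
  have : LocallyCompactSpace (Matrix (Fin n) (Fin n) ℝ) :=
    inferInstanceAs (LocallyCompactSpace (Fin n → Fin n → ℝ))
  exact SpecialLinearGroup.isClosedEmbedding_val.locallyCompactSpace

theorem secondCountable_SL (n : ℕ) :
    SecondCountableTopology (SpecialLinearGroup (Fin n) ℝ) := by
  have : SecondCountableTopology (Matrix (Fin n) (Fin n) ℝ) :=
    inferInstanceAs (SecondCountableTopology (Fin n → Fin n → ℝ))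
  exact SpecialLinearGroup.isClosedEmbedding_val.isEmbedding.secondCountableTopology

/-- Real matrices all of whose entries are integers. -/
def intMatrices (n : ℕ) : Set (Matrix (Fin n) (Fin n) ℝ) :=
  {A | ∀ i k, A i k ∈ Set.range ((↑) : ℤ → ℝ)}

theorem isClosed_intMatrices (n : ℕ) : IsClosed (intMatrices n) := by
  have h : intMatrices n =
      ⋂ i, ⋂ k, (fun A : Matrix (Fin n) (Fin n) ℝ => A i k) ⁻¹' Set.range ((↑) : ℤ → ℝ) := by
    ext A
    simp [intMatrices]
  rw [h]
  exact isClosed_iInter fun i => isClosed_iInter fun k =>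
    Int.isClosedEmbedding_coe_real.isClosed_range.preimage (continuous_id.matrix_elem i k)

theorem intMatrices_mul {A B : Matrix (Fin n) (Fin n) ℝ} (hA : A ∈ intMatrices n)
    (hB : B ∈ intMatrices n) : A * B ∈ intMatrices n := by
  intro i k
  choose a ha using hA
  choose b hb using hB
  exact ⟨∑ j, a i j * b j k, by push_cast; simp [Matrix.mul_apply, ha, hb]⟩

theorem latticeGroup_entries {γ : SpecialLinearGroup (Fin n) ℝ} (h : γ ∈ latticeGroup n) :
    (γ : Matrix (Fin n) (Fin n) ℝ) ∈ intMatrices n := by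
  obtain ⟨δ, rfl⟩ := h
  intro i k
  exact ⟨δ i k, by simp⟩

/-- `g` gives a lattice invariant under `diag d`. -/
def conjSet (d : Fin n → ℝ) : Set (SpecialLinearGroup (Fin n) ℝ) :=
  {g | ((g⁻¹ : SpecialLinearGroup (Fin n) ℝ) : Matrix (Fin n) (Fin n) ℝ) * diagonal d *
    (g : Matrix (Fin n) (Fin n) ℝ) ∈ intMatrices n}

theorem isClosed_conjSet (d : Fin n → ℝ) : IsClosed (conjSet d) :=
  (isClosed_intMatrices n).preimage <| by fun_prop

theorem conjSet_invariant {d : Fin n → ℝ} {g γ : SpecialLinearGroup (Fin n) ℝ}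
    (hg : g ∈ conjSet d) (hγ : γ ∈ latticeGroup n) : g * γ ∈ conjSet d := by
  have h := intMatrices_mul (intMatrices_mul (latticeGroup_entries (inv_mem hγ)) hg)
    (latticeGroup_entries hγ)
  have e1 : (g * γ)⁻¹ = γ⁻¹ * g⁻¹ := _root_.mul_inv_rev g γ
  change ((g * γ)⁻¹ : SpecialLinearGroup (Fin n) ℝ).1 * diagonal d * (g * γ).1 ∈ intMatrices n
  rw [e1]
  change (γ⁻¹).1 * (g⁻¹).1 * diagonal d * (g.1 * γ.1) ∈ intMatrices n
  simpa [Matrix.mul_assoc] using h

/-- The set of lattices invariant under `diag d` for some non-constant `d` with entries in `R`. -/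
def invariantSet (n : ℕ) (R : Finset ℝ) : Set (LatticeSpace n) :=
  {x | ∃ d ∈ Fintype.piFinset (fun _ : Fin n => R),
    (∃ i j, d i ≠ d j) ∧ ∃ g ∈ conjSet d, (g : LatticeSpace n) = x}

theorem mem_invariantSet_iff (R : Finset ℝ) (g : SpecialLinearGroup (Fin n) ℝ) :
    (g : LatticeSpace n) ∈ invariantSet n R ↔
      ∃ d ∈ Fintype.piFinset (fun _ : Fin n => R), (∃ i j, d i ≠ d j) ∧ g ∈ conjSet d := by
  constructor
  · rintro ⟨d, hd, hne, g', hg', he⟩
    refine ⟨d, hd, hne, ?_⟩
    have := conjSet_invariant hg' (QuotientGroup.eq.1 he)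
    rwa [mul_inv_cancel_left] at this
  · rintro ⟨d, hd, hne, hg⟩
    exact ⟨d, hd, hne, g, hg, rfl⟩

theorem isClosed_invariantSet (n : ℕ) (R : Finset ℝ) : IsClosed (invariantSet n R) := by
  rw [← (QuotientGroup.isQuotientMap_mk (latticeGroup n)).isClosed_preimage]
  have h : (QuotientGroup.mk : _ → LatticeSpace n) ⁻¹' invariantSet n R =
      ⋃ d ∈ (↑((Fintype.piFinset (fun _ : Fin n => R)).filter fun d => ∃ i j, d i ≠ d j) :
        Set (Fin n → ℝ)), conjSet d := by
    ext g
    simp [mem_invariantSet_iff, and_assoc]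
  rw [h]
  exact (Finset.finite_toSet _).isClosed_biUnion fun d _ => isClosed_conjSet d

theorem invariantSet_ne_univ (R : Finset ℝ) : invariantSet n R ≠ Set.univ := by
  classical
  rcases Nat.eq_zero_or_pos n with rfl | hn
  · intro h
    have : ((1 : SpecialLinearGroup (Fin 0) ℝ) : LatticeSpace 0) ∈ invariantSet 0 R :=
      h ▸ Set.mem_univ _
    obtain ⟨d, _, ⟨i, _⟩, _⟩ := this
    exact i.elim0
  let z : Fin n := ⟨0, hn⟩
  set bad : Set ℝ := ⋃ p ∈ (↑(R ×ˢ R) : Set (ℝ × ℝ)),
    Set.range (fun m : ℤ => (m : ℝ) / (p.1 - p.2)) with hbad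
  have hcount : bad.Countable :=
    (Finset.finite_toSet (R ×ˢ R)).countable.biUnion fun p _ => Set.countable_range _
  obtain ⟨t, ht⟩ : ∃ t, t ∉ bad := by
    by_contra! hall
    exact Set.not_countable_univ (hcount.mono fun x _ => hall x)
  let N : Matrix (Fin n) (Fin n) ℝ := Matrix.of fun i k => if k = z ∧ i ≠ z then t else 0
  have hNN : N * N = 0 := by
    ext i k
    simp only [Matrix.mul_apply, Matrix.zero_apply, N, Matrix.of_apply]
    refine Finset.sum_eq_zero fun j _ => ?_
    by_cases hj : j = z <;> simp [hj]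
  have hinv : (1 - N) * (1 + N) = 1 := by
    rw [mul_add, mul_one, sub_mul, one_mul, hNN]
    abel
  have htri : (1 + N).BlockTriangular OrderDual.toDual := by
    intro i k hik
    have hik' : i < k := hik
    have hkz : k ≠ z := by
      intro hkz
      rw [hkz] at hik'
      exact Nat.not_lt_zero _ hik'
    simp [Matrix.add_apply, Matrix.one_apply_ne hik'.ne, N, hkz]
  have hdet : (1 + N).det = 1 := by
    rw [Matrix.det_of_isLowerTriangular _ htri]
    refine Finset.prod_eq_one fun i _ => ?_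
    by_cases hi : i = z <;> simp [N, hi]
  let g : SpecialLinearGroup (Fin n) ℝ := ⟨1 + N, hdet⟩
  intro h
  obtain ⟨d, hd, ⟨i, j, hij⟩, hg⟩ := (mem_invariantSet_iff R g).1 (h ▸ Set.mem_univ _)
  obtain ⟨k, hk⟩ : ∃ k, d k ≠ d z := by
    by_contra! hall
    exact hij ((hall i).trans (hall j).symm)
  have hkz : k ≠ z := fun e => hk (by rw [e])
  have hginv : ((g⁻¹ : SpecialLinearGroup (Fin n) ℝ) : Matrix (Fin n) (Fin n) ℝ) = 1 - N := by
    have h1 : ((g⁻¹ : SpecialLinearGroup (Fin n) ℝ) : Matrix (Fin n) (Fin n) ℝ) * (1 + N) = 1 := by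
      change ((g⁻¹ : SpecialLinearGroup (Fin n) ℝ) : Matrix (Fin n) (Fin n) ℝ) *
        (g : Matrix (Fin n) (Fin n) ℝ) = 1
      exact congrArg Subtype.val (inv_mul_cancel g)
    calc _ = ((g⁻¹ : SpecialLinearGroup (Fin n) ℝ) : Matrix (Fin n) (Fin n) ℝ) *
          ((1 + N) * (1 - N)) := by rw [mul_eq_one_comm.1 hinv, mul_one]
      _ = 1 - N := by rw [← mul_assoc, h1, one_mul]
  have hNk : ∀ p, N k p = if p = z then t else 0 := fun p => by simp [N, hkz]
  have hentry : (((g⁻¹ : SpecialLinearGroup (Fin n) ℝ) : Matrix (Fin n) (Fin n) ℝ) * diagonal d *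
      (g : Matrix (Fin n) (Fin n) ℝ)) k z = t * (d k - d z) := by
    rw [hginv]
    change ((1 - N) * diagonal d * (1 + N)) k z = _
    have hNDN : N * diagonal d * N = 0 := by
      ext p p'
      simp only [Matrix.mul_apply (M := N * diagonal d), Matrix.mul_diagonal, Matrix.zero_apply, N,
        Matrix.of_apply]
      refine Finset.sum_eq_zero fun q _ => ?_
      by_cases hq : q = z <;> simp [hq]
    have hexp : (1 - N) * diagonal d * (1 + N) =
        diagonal d + diagonal d * N - N * diagonal d := by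
      rw [sub_mul, one_mul, mul_add, mul_one, sub_mul, hNDN]
      abel
    rw [hexp, Matrix.sub_apply, Matrix.add_apply, Matrix.diagonal_mul, Matrix.mul_diagonal,
      Matrix.diagonal_apply_ne _ hkz, hNk z, if_pos rfl]
    ring
  obtain ⟨m, hm⟩ := hg k z
  rw [hentry] at hm
  apply ht
  rw [hbad, Set.mem_iUnion₂]
  refine ⟨(d k, d z), ?_, m, ?_⟩
  · rw [Finset.mem_coe, Finset.mem_product]
    exact ⟨Fintype.mem_piFinset.1 hd k, Fintype.mem_piFinset.1 hd z⟩
  · simp only
    rw [hm, mul_div_assoc, div_self (sub_ne_zero.2 hk), mul_one]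

/-- A lattice `c · σ(S)` with `r S ⊆ S` is invariant under `diag (σ(r))`. -/
theorem mem_conjSet_of_stable {K : Type*} [Field K] (σ : Fin n → (K →+* ℝ))
    (g : SpecialLinearGroup (Fin n) ℝ) (c : Fin n → ℝ) (S : Set K) (r : K)
    (hS : ∀ α ∈ S, r * α ∈ S)
    (hg : Set.range (fun v : Fin n → ℤ => (g : Matrix (Fin n) (Fin n) ℝ) *ᵥ fun k => (v k : ℝ)) =
      (fun α : K => fun j => c j * σ j α) '' S) :
    g ∈ conjSet (fun j => σ j r) := by
  intro i k
  have h1 : (g : Matrix (Fin n) (Fin n) ℝ).col k ∈ (fun α : K => fun j => c j * σ j α) '' S := by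
    rw [← hg]
    refine ⟨Pi.single k 1, ?_⟩
    ext j
    simp [Matrix.mulVec, dotProduct, Pi.single_apply]
  obtain ⟨α, hα, hcol⟩ := h1
  have h2 : (fun j => c j * σ j (r * α)) ∈
      Set.range (fun v : Fin n → ℤ => (g : Matrix (Fin n) (Fin n) ℝ) *ᵥ fun k => (v k : ℝ)) := by
    rw [hg]
    exact ⟨_, hS α hα, rfl⟩
  obtain ⟨v, hv⟩ := h2
  have h3 : (diagonal (fun j => σ j r) * (g : Matrix (Fin n) (Fin n) ℝ)).col k =
      (g : Matrix (Fin n) (Fin n) ℝ) *ᵥ fun l => (v l : ℝ) := by
    ext j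
    have hj := congrFun hcol j
    rw [Matrix.col_apply] at hj
    refine Eq.trans ?_ (congrFun hv j).symm
    simp only [Matrix.col_apply, Matrix.diagonal_mul, ← hj, map_mul]
    ring
  refine ⟨v i, ?_⟩
  have h4 : ((g⁻¹ : SpecialLinearGroup (Fin n) ℝ) : Matrix (Fin n) (Fin n) ℝ) *ᵥ
      (diagonal (fun j => σ j r) * (g : Matrix (Fin n) (Fin n) ℝ)).col k = fun l => (v l : ℝ) := by
    have hone : ((g⁻¹ : SpecialLinearGroup (Fin n) ℝ) : Matrix (Fin n) (Fin n) ℝ) *
        (g : Matrix (Fin n) (Fin n) ℝ) = 1 := congrArg Subtype.val (inv_mul_cancel g)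
    rw [h3, Matrix.mulVec_mulVec, hone, Matrix.one_mulVec]
  rw [← congrFun h4 i, Matrix.mul_assoc]
  simp [Matrix.mulVec, dotProduct, Matrix.mul_apply]

/-- The analytic conclusion: a test function vanishing on a closed proper subset. -/
theorem exists_test_function (C : Set (LatticeSpace n)) (hC : IsClosed C) (hne : C ≠ Set.univ)
    [MeasurableSpace (LatticeSpace n)] [BorelSpace (LatticeSpace n)] :
    ∃ f : LatticeSpace n → ℝ, Continuous f ∧ HasCompactSupport f ∧
      (∀ x, 0 ≤ f x) ∧ (∃ x, f x = 1) ∧ (∀ x ∈ C, f x = 0) ∧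
      (∀ μ : Measure (LatticeSpace n), μ Cᶜ = 0 → ∫ x, f x ∂μ = 0) ∧
      (∀ m : Measure (LatticeSpace n), IsFiniteMeasure m → m ≠ 0 →
        (∀ h : SpecialLinearGroup (Fin n) ℝ, m.map (fun x => h • x) = m) →
        0 < ∫ x, f x ∂m) := by
  have := isClosed_latticeGroup n
  have := locallyCompact_SL n
  have := secondCountable_SL n
  obtain ⟨x0, hx0⟩ := (Set.ne_univ_iff_exists_notMem C).1 hne
  obtain ⟨f, hf1, hf0, hfc, hfb⟩ := exists_continuous_one_zero_of_isCompact
    (isCompact_singleton (x := x0)) hC (Set.disjoint_singleton_left.2 hx0)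
  refine ⟨f, f.continuous, hfc, fun x => (hfb x).1, ⟨x0, hf1 (Set.mem_singleton x0)⟩,
    fun x hx => hf0 hx, fun μ hμ => ?_, fun m hfin hm0 hinv => ?_⟩
  · refine integral_eq_zero_of_ae ?_
    exact (mem_ae_iff.2 hμ : C ∈ ae μ) |> Filter.mem_of_superset <| fun x hx => hf0 hx
  · have hint : Integrable f m := f.continuous.integrable_of_hasCompactSupport hfc
    rw [integral_pos_iff_support_of_nonneg (fun x => (hfb x).1) hint]
    have hopen : IsOpen (Function.support f) := f.continuous.isOpen_support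
    refine pos_iff_ne_zero.2 fun hzero => hm0 ?_
    have hcov : (⋃ h : SpecialLinearGroup (Fin n) ℝ,
        (fun x => h • x) ⁻¹' Function.support f) = Set.univ := by
      refine Set.eq_univ_of_forall fun x => ?_
      obtain ⟨h, hh⟩ := MulAction.exists_smul_eq (SpecialLinearGroup (Fin n) ℝ) x x0
      refine Set.mem_iUnion.2 ⟨h, ?_⟩
      simp [hh, hf1 (Set.mem_singleton x0)]
    obtain ⟨T, hTc, hT⟩ := TopologicalSpace.isOpen_iUnion_countable
      (fun h : SpecialLinearGroup (Fin n) ℝ => (fun x => h • x) ⁻¹' Function.support f)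
      (fun h => hopen.preimage (continuous_const_smul h))
    rw [← Measure.measure_univ_eq_zero, ← hcov, ← hT, measure_biUnion_null_iff hTc]
    intro h _
    rw [← Measure.map_apply (continuous_const_smul h).measurable hopen.measurableSet, hinv h]
    exact hzero

end Vale.Agent.P007
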