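import Mathlib
import Vale.Agent.P007.Defs
import Vale.Agent.P007.Invariant

/-!
Packets are nonempty, and a packet of an order containing a fixed irrational algebraic integer
lies in a fixed invariant set.
-/

namespace Vale.Agent.P007

open Matrix

variable {n : ℕ} {K : Type*} [Field K] [NumberField K]

/-- The embedding matrix of a basis. -/
noncomputable def embMatrix (σ : Fin n ≃ (K →+* ℝ)) (b : Module.Basis (Fin n) ℚ K) :
    Matrix (Fin n) (Fin n) ℝ :=
  Matrix.of fun j k => σ j (b k)

theorem det_embMatrix_ne_zero (σ : Fin n ≃ (K →+* ℝ)) (b : Module.Basis (Fin n) ℚ K) :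
    (embMatrix σ b).det ≠ 0 := by
  intro h0
  obtain ⟨v, hv, hvA⟩ := Matrix.exists_vecMul_eq_zero_iff.2 h0
  have hlin : LinearIndependent ℝ fun j : Fin n => ((σ j : K →+* ℝ) : K → ℝ) :=
    (linearIndependent_monoidHom K ℝ).comp (fun j => ((σ j : K →+* ℝ) : K →* ℝ))
      (fun a c hac => σ.injective (RingHom.ext fun x => DFunLike.congr_fun hac x))
  have hzero : ∑ j, v j • ((σ j : K →+* ℝ) : K → ℝ) = 0 := by
    funext x
    simp only [Finset.sum_apply, Pi.smul_apply, smul_eq_mul, Pi.zero_apply]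
    have hk : ∀ k, ∑ j, v j * σ j (b k) = 0 := fun k => congrFun hvA k
    rw [← b.sum_repr x]
    simp only [map_sum, Algebra.smul_def, map_mul, eq_ratCast, map_ratCast, Finset.mul_sum]
    rw [Finset.sum_comm]
    refine Finset.sum_eq_zero fun k _ => ?_
    have := congrArg (fun y : ℝ => (b.repr x k : ℝ) * y) (hk k)
    simp only [mul_zero, Finset.mul_sum] at this
    rw [← this]
    exact Finset.sum_congr rfl fun j _ => by ring
  exact hv (funext (Fintype.linearIndependent_iff.1 hlin v hzero))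

/-- An element with equal images under all the embeddings is rational. -/
theorem exists_embedding_ne (σ : Fin n ≃ (K →+* ℝ)) (b : Module.Basis (Fin n) ℚ K) {r : K}
    (hr : r ∉ Set.range (algebraMap ℚ K)) : ∃ i j, σ i r ≠ σ j r := by
  by_contra! hall
  obtain ⟨i0⟩ : Nonempty (Fin n) := by
    by_contra hne
    rw [not_nonempty_iff] at hne
    have h1 : (1 : K) = 0 := by rw [← b.sum_repr 1]; simp
    exact one_ne_zero h1
  set c := σ i0 r with hc
  set A := embMatrix σ b with hA
  have hApply : ∀ x : K, (A *ᵥ fun k => (b.repr x k : ℝ)) = fun j => σ j x := by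
    intro x
    funext j
    conv_rhs => rw [← b.sum_repr x]
    simp [hA, embMatrix, Matrix.mulVec, dotProduct, Algebra.smul_def, map_sum, mul_comm]
  have hz : A *ᵥ ((fun k => (b.repr r k : ℝ)) - c • fun k => (b.repr 1 k : ℝ)) = 0 := by
    rw [Matrix.mulVec_sub, Matrix.mulVec_smul, hApply, hApply]
    funext j
    simp [hc, hall j i0]
  have hu : A.det ≠ 0 := det_embMatrix_ne_zero σ b
  have h0 := Matrix.eq_zero_of_mulVec_eq_zero hu hz
  obtain ⟨k, hk⟩ : ∃ k, b.repr 1 k ≠ 0 := by
    by_contra! hall0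
    exact one_ne_zero (b.repr.map_eq_zero_iff.1 (Finsupp.ext hall0) : (1 : K) = 0)
  set s : ℚ := b.repr r k / b.repr 1 k with hs
  have hcs : c = (s : ℝ) := by
    have := congrFun h0 k
    simp only [Pi.sub_apply, Pi.smul_apply, smul_eq_mul, Pi.zero_apply, sub_eq_zero] at this
    rw [hs, Rat.cast_div, this, mul_div_assoc, div_self (Rat.cast_ne_zero.2 hk), mul_one]
  apply hr
  refine ⟨s, b.repr.injective (Finsupp.ext fun l => ?_)⟩
  have hl := congrFun h0 l
  simp only [Pi.sub_apply, Pi.smul_apply, smul_eq_mul, Pi.zero_apply, sub_eq_zero, hcs] at hl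
  rw [Algebra.algebraMap_eq_smul_one, map_smul, Finsupp.smul_apply, smul_eq_mul]
  exact_mod_cast hl.symm

/-- The packet of any subring containing a root of `P` outside `ℚ` lies in a set depending
only on `P`. -/
theorem packet_subset (O : Subring K) (σ : Fin n ≃ (K →+* ℝ)) (b : Module.Basis (Fin n) ℚ K)
    (P : Polynomial ℤ) (hP : P ≠ 0) {r : K} (hrO : r ∈ O)
    (hrP : Polynomial.aeval r P = 0) (hr : r ∉ Set.range (algebraMap ℚ K)) :
    packet K O σ ⊆ invariantSet n (P.aroots ℝ).toFinset := by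
  rintro x ⟨g, rfl, I, c, -, hg⟩
  rw [mem_invariantSet_iff]
  refine ⟨fun j => σ j r, ?_, exists_embedding_ne σ b hr, ?_⟩
  · rw [Fintype.mem_piFinset]
    intro j
    rw [Multiset.mem_toFinset, Polynomial.mem_aroots]
    refine ⟨hP, ?_⟩
    rw [Polynomial.aeval_def, ← RingHom.ext_int ((σ j).comp (algebraMap ℤ K)) (algebraMap ℤ ℝ),
      ← Polynomial.hom_eval₂, ← Polynomial.aeval_def, hrP, map_zero]
  · exact mem_conjSet_of_stable σ g c _ r
      (fun α hα => (I : Submodule O K).smul_mem (⟨r, hrO⟩ : O) hα) hg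

/-- The packet of the maximal order is nonempty. -/
theorem packet_nonempty (hn : Module.finrank ℚ K = n) (hpos : 0 < n) (σ : Fin n ≃ (K →+* ℝ)) :
    (packet K (integralClosure ℤ K).toSubring σ).Nonempty := by
  classical
  have hcard : Fintype.card (Module.Free.ChooseBasisIndex ℤ (NumberField.RingOfIntegers K)) = n := by
    rw [← Module.finrank_eq_card_chooseBasisIndex, NumberField.RingOfIntegers.rank, hn]
  let e := Fintype.equivFinOfCardEq hcard
  let bI := (NumberField.RingOfIntegers.basis K).reindex e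
  let b := (NumberField.integralBasis K).reindex e
  have hb : ∀ k, b k = ((bI k : NumberField.RingOfIntegers K) : K) := fun k => by
    simp [b, bI, NumberField.integralBasis_apply]
  set A := embMatrix σ b with hA
  have hdet : A.det ≠ 0 := det_embMatrix_ne_zero σ b
  let z : Fin n := ⟨0, hpos⟩
  let c : Fin n → ℝ := fun j => if j = z then A.det⁻¹ else 1
  have hcne : ∀ j, c j ≠ 0 := fun j => by
    simp only [c]
    split_ifs
    · exact inv_ne_zero hdet
    · exact one_ne_zero
  have hgdet : (diagonal c * A).det = 1 := by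
    rw [Matrix.det_mul, Matrix.det_diagonal]
    simp [c, Finset.prod_ite_eq', hdet]
  let g : SpecialLinearGroup (Fin n) ℝ := ⟨diagonal c * A, hgdet⟩
  refine ⟨(g : LatticeSpace n), ?_⟩
  refine ⟨g, rfl, 1, c, hcne, ?_⟩
  change Set.range (fun v : Fin n → ℤ => (diagonal c * A) *ᵥ fun k => (v k : ℝ)) = _
  have hval : ∀ v : Fin n → ℤ, (diagonal c * A) *ᵥ (fun k => (v k : ℝ)) =
      fun j => c j * σ j (∑ k, (v k : K) * b k) := by
    intro v
    funext j
    simp [Matrix.mulVec, dotProduct, Matrix.diagonal_mul, hA, embMatrix, map_sum,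
      Finset.mul_sum, mul_assoc, mul_comm, mul_left_comm]
  have hone : ∀ y : K, y ∈ ((1 : Submodule (integralClosure ℤ K).toSubring K) : Set K) ↔
      IsIntegral ℤ y := by
    intro y
    rw [SetLike.mem_coe, Submodule.mem_one]
    exact ⟨fun ⟨o, ho⟩ => ho ▸ o.2, fun hy => ⟨⟨y, hy⟩, rfl⟩⟩
  ext w
  constructor
  · rintro ⟨v, rfl⟩
    refine ⟨∑ k, (v k : K) * b k, ?_, (hval v).symm⟩
    rw [Units.val_one, hone]
    exact IsIntegral.sum _ fun k _ => (isIntegral_intCast (v k)).mul (hb k ▸ (bI k).2)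
  · rintro ⟨α, hα, rfl⟩
    rw [Units.val_one, hone] at hα
    refine ⟨fun k => bI.repr ⟨α, hα⟩ k, ?_⟩
    refine (hval _).trans ?_
    have hsum := congrArg (algebraMap (NumberField.RingOfIntegers K) K) (bI.sum_repr ⟨α, hα⟩)
    rw [map_sum] at hsum
    have hα' : α = ∑ k, ((bI.repr ⟨α, hα⟩ k : ℤ) : K) * b k := by
      refine (Eq.trans hsum.symm ?_ : algebraMap (NumberField.RingOfIntegers K) K ⟨α, hα⟩ = _)
      exact Finset.sum_congr rfl fun k _ => by
        rw [zsmul_eq_mul, map_mul, map_intCast, hb k]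
    rw [← hα']

end Vale.Agent.P007
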